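import Vale.Agent.P244Z.Final

/-!
P244: the scalar-curvature extension conjecture fails in every dimension `n ≥ 10003`.
-/

namespace Vale.Agent.Results.P244.BoundedScalarSingular

open Vale.Agent.P244Z

/-- In every dimension `n ≥ 10003` there is a closed connected smooth `n`-manifold with a smooth
Ricci flow on a bounded time interval `[0,T)`, with bounded scalar curvature, which does not
extend past `T`. -/
theorem result : ∀ n : ℕ, 10003 ≤ n → Geo.Counterexample n :=
  fun _ hn => Q.counterexample_all hn

end Vale.Agent.Results.P244.BoundedScalarSingular
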